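import Vale.Agent.P134.H283.Gauss

set_option linter.all false

/-! Gaussian convolutions of bounded `C¹` functions: derivative along a line, the mean value
formula, translation of the centre. -/

namespace Vale.Agent.P134.H517

open Vale.Agent.P134 Vale.Agent.P134.SM Vale.Agent.P134.H283 MeasureTheory Filter Topology

variable {n : ℕ} {f g u V h F : (Fin n → ℝ) → ℝ} {x y e p q : Fin n → ℝ} {i j : Fin n} {b K M r : ℝ}

/-- `∫ F(x) e^{-b|x-p|²} dx` -/
noncomputable def cv (b : ℝ) (F : (Fin n → ℝ) → ℝ) (p : Fin n → ℝ) : ℝ :=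
  ∫ x, F x * gam b (x - p)

lemma cv_eq (b : ℝ) (F : (Fin n → ℝ) → ℝ) (p : Fin n → ℝ) :
    cv b F p = ∫ x, F (x + p) * gam b x := by
  unfold cv
  rw [← integral_add_right_eq_self (μ := (volume : Measure (Fin n → ℝ))) _ p]
  simp

lemma cv_integrable (hb : 0 < b) (hF : Continuous F) {C : ℝ} (hC : ∀ x, |F x| ≤ C)
    (p : Fin n → ℝ) : Integrable (fun x => F x * gam b (x - p)) :=
  integrable_bdd_mul hF hC ((gam_integrable hb).comp_sub_right p)

lemma cv_integrable' (hb : 0 < b) (hF : Continuous F) {C : ℝ} (hC : ∀ x, |F x| ≤ C)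
    (p : Fin n → ℝ) : Integrable (fun x => F (x + p) * gam b x) :=
  integrable_bdd_mul (hF.comp (continuous_id.add continuous_const)) (fun x => hC _)
    (gam_integrable hb)

lemma abs_dd_le {C : ℝ} (hC : ∀ x i, |pd i F x| ≤ C) (q x : Fin n → ℝ) :
    |dd q F x| ≤ ∑ i, |q i| * C := by
  unfold dd
  refine (Finset.abs_sum_le_sum_abs _ _).trans (Finset.sum_le_sum fun i _ => ?_)
  rw [abs_mul]
  exact mul_le_mul_of_nonneg_left (hC x i) (abs_nonneg _)

lemma dd_continuous (hF : ContDiff ℝ 1 F) (q : Fin n → ℝ) : Continuous (dd q F) := by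
  unfold dd
  exact continuous_finsetSum _ fun i _ => continuous_const.mul (continuous_pd hF)

/-- the convolution is differentiable along every line -/
lemma hasDerivAt_cv (hb : 0 < b) (hF : ContDiff ℝ 1 F) {C C' : ℝ} (hC : ∀ x, |F x| ≤ C)
    (hC' : ∀ x i, |pd i F x| ≤ C') (p q : Fin n → ℝ) (t : ℝ) :
    HasDerivAt (fun t => cv b F (p + t • q)) (cv b (dd q F) (p + t • q)) t := by
  have hFd : Differentiable ℝ F := hF.differentiable (by norm_num)
  have hmain := (hasDerivAt_integral_of_dominated_loc_of_deriv_le (μ := volume)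
    (F := fun s x => F ((x + p) + s • q) * gam b x)
    (F' := fun s x => dd q F ((x + p) + s • q) * gam b x) (x₀ := t) (s := Set.univ)
    (bound := fun x => (∑ i, |q i| * C') * gam b x) Filter.univ_mem
    (Filter.Eventually.of_forall fun s =>
      ((hF.continuous.comp (by fun_prop)).mul (gam_continuous _)).aestronglyMeasurable)
    (by
      have := cv_integrable' hb hF.continuous hC (p + t • q)
      simpa only [add_assoc] using this)
    (((dd_continuous hF q).comp (by fun_prop)).mul (gam_continuous _)).aestronglyMeasurable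
    (Filter.Eventually.of_forall fun x s _ => by
      rw [Real.norm_eq_abs, abs_mul, abs_of_pos (gam_pos _ x)]
      exact mul_le_mul_of_nonneg_right (abs_dd_le hC' q _) (gam_pos _ x).le)
    ((gam_integrable hb).const_mul _)
    (Filter.Eventually.of_forall fun x s _ => by
      exact (hasDerivAt_dd hFd (x + p) q s).mul_const _)).2
  have e1 : (fun t : ℝ => cv b F (p + t • q)) = fun s : ℝ => ∫ x, F ((x + p) + s • q) * gam b x := by
    funext s; rw [cv_eq]; simp only [add_assoc]
  have e2 : cv b (dd q F) (p + t • q) = ∫ x, dd q F ((x + p) + t • q) * gam b x := by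
    rw [cv_eq]; simp only [add_assoc]
  rw [e1, e2]
  exact hmain

/-- the convolution of a bounded continuous function is continuous along lines -/
lemma continuous_cv_line (hb : 0 < b) (hF : Continuous F) {C : ℝ} (hC : ∀ x, |F x| ≤ C)
    (p q : Fin n → ℝ) : Continuous (fun t : ℝ => cv b F (p + t • q)) := by
  have e1 : (fun t : ℝ => cv b F (p + t • q)) = fun s : ℝ => ∫ x, F ((x + p) + s • q) * gam b x := by
    funext s; rw [cv_eq]; simp only [add_assoc]
  rw [e1]
  refine continuous_of_dominated (bound := fun x => C * gam b x) ?_ ?_ ?_ ?_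
  · intro s
    exact ((hF.comp (by fun_prop)).mul (gam_continuous _)).aestronglyMeasurable
  · intro s
    filter_upwards with x
    rw [Real.norm_eq_abs, abs_mul, abs_of_pos (gam_pos _ x)]
    exact mul_le_mul_of_nonneg_right (hC _) (gam_pos _ x).le
  · exact (gam_integrable hb).const_mul _
  · filter_upwards with x
    exact (hF.comp (by fun_prop)).mul continuous_const

/-- mean value formula -/
lemma cv_sub_cv (hb : 0 < b) (hF : ContDiff ℝ 1 F) {C C' : ℝ} (hC : ∀ x, |F x| ≤ C)
    (hC' : ∀ x i, |pd i F x| ≤ C') (p q : Fin n → ℝ) :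
    cv b F (p + q) - cv b F p = ∫ t in (0:ℝ)..1, cv b (dd q F) (p + t • q) := by
  have h := intervalIntegral.integral_eq_sub_of_hasDerivAt (a := 0) (b := 1)
    (f := fun t => cv b F (p + t • q)) (f' := fun t => cv b (dd q F) (p + t • q))
    (fun t _ => hasDerivAt_cv hb hF hC hC' p q t)
    ((continuous_cv_line hb (dd_continuous hF q) (abs_dd_le hC' q) p q).intervalIntegrable _ _)
  rw [h]; simp

end Vale.Agent.P134.H517
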